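import Vale.Agent.N087.Main

namespace Vale.Agent.Results.P087.A0Scaling

open Vale.Agent.P087L14 Vale.Agent.N087

/-- Microstates and nonmicrostates free entropy behave differently under a change of scale of the
variables. (1) `χ(l_1 X_1, …, l_n X_n) = χ(X) + ∑ log l_j` always. (2) The same formula is false
for `χ^*`. (3) For every `n ≥ 10 ^ 50` there is an `n`-tuple such that, when the variables in a set
`D` are multiplied by `l`, the difference `χ^* - χ` is finite, at least `10⁻²⁵ n` for `l ≤ 1`, and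
tends to `0` as `l → ∞`. -/
theorem result :
    (∀ (A H : Type) [Ring A] [StarRing A] [Algebra ℂ A] [StarModule ℂ A] [NormedAddCommGroup H]
      [InnerProductSpace ℂ H] [CompleteSpace H] (T : Tracial A H) (n : ℕ) (X : Fin n → A)
      (l : Fin n → ℝ), (∀ j, 0 < l j) →
      T.chi (fun j => (l j : ℂ) • X j) = T.chi X + (∑ j, Real.log (l j) : ℝ)) ∧
    ¬ StarScaling ∧ ∀ n : ℕ, 10 ^ 50 ≤ n → ScalingGap n (1 / 10 ^ 25 * n) :=
  ⟨fun _ _ _ _ _ _ _ _ _ T _ X l hl => chi_smul T X l hl, not_starScaling, scalingGap⟩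

end Vale.Agent.Results.P087.A0Scaling
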